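import Vale.Agent.P188.H854.Index

/-!
The algebraic end (QA6), from the computation of the top homology (QA6b_top).
-/

universe u v w

namespace Vale.Agent.P188.H882

open Finsupp TensorProduct

section Aux

variable {P : Type u} [Group P] {X : Type v} [MulAction P X] {M : Type w} [AddCommGroup M]

/-- The extension of an integral functional to coefficients. -/
noncomputable def cE (c : Ch X →ₗ[ℤ] ℤ) : CM X M →+ M :=
  ((TensorProduct.lid ℤ M).toLinearMap ∘ₗ LinearMap.rTensor M c).toAddMonoidHom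

@[simp] lemma cE_tp (c : Ch X →ₗ[ℤ] ℤ) (u : Ch X) (m : M) : cE c (tp u m) = c u • m := by
  show (TensorProduct.lid ℤ M) (LinearMap.rTensor M c (u ⊗ₜ m)) = _
  rw [LinearMap.rTensor_tmul, TensorProduct.lid_tmul]

lemma cE_null {c : Ch X →ₗ[ℤ] ℤ} {q : ℕ} (hq : q ≠ 0) {S : Subgroup P}
    (hc : ∀ (g : P) (u : Ch X), c (act g u) = c u)
    (hb : ∀ u ∈ Sp (Gr (q + 1) : Set (List X)), c (bd u) = 0) {z : CM X M}
    (hz : z ∈ DG X M q) (hn : Null (1 : P →* AddMonoid.End M) S q z) : cE c z = 0 := by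
  obtain ⟨w, hw, e⟩ := hn
  have h1 : Rl (X := X) (1 : P →* AddMonoid.End M) S ≤ ((cE c).comp (fM q)).ker := by
    apply Rl_le
    · intro g _ u
      rw [AddMonoidHom.mem_ker]
      have := cm_ext (f := ((cE c).comp (fM q)).comp (aM (X := X) (1 : P →* AddMonoid.End M) g))
        (g := (cE c).comp (fM q)) (by
          intro u m
          simp only [AddMonoidHom.comp_apply, aM_tp, fM_tp, cE_tp]
          rw [flt_act, hc]
          rfl) u
      rw [map_sub, sub_eq_zero]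
      exact this
    · intro z hz
      rw [AddMonoidHom.mem_ker, AddMonoidHom.comp_apply, fM_eq_zero (Ne.symm hq) hz, map_zero]
  have h2 := h1 e
  rw [AddMonoidHom.mem_ker, AddMonoidHom.comp_apply,
    mem_DG.mp (AddSubgroup.sub_mem _ hz (bM_mem hw)), map_sub, sub_eq_zero] at h2
  rw [h2]
  have h3 := dg_ext (f := (cE c).comp (bM (M := M))) (g := (0 : CM X M →+ M)) (fun u m hu => by
    rw [AddMonoidHom.comp_apply, bM_tp, cE_tp, hb u hu, zero_smul]; rfl) hw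
  exact h3

lemma cm_id (z : CM X M) : cm (AddMonoidHom.id M) z = z := by
  have := cm_ext (f := cm (X := X) (AddMonoidHom.id M)) (g := AddMonoidHom.id _) (by
    intro u m; simp) z
  exact this

lemma Null.congr_rho {ρ ρ' : P →* AddMonoid.End M} {S : Subgroup P} (h : ∀ g ∈ S, ρ g = ρ' g)
    {q : ℕ} {z : CM X M} (hz : Null ρ S q z) : Null ρ' S q z := by
  have := cm_Null (AddMonoidHom.id M) (ρ' := ρ') (fun g hg m => by rw [h g hg]; rfl) hz
  rwa [cm_id] at this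

lemma Rl_congr_rho {ρ ρ' : P →* AddMonoid.End M} {S : Subgroup P} (h : ∀ g ∈ S, ρ g = ρ' g)
    {z : CM X M} (hz : z ∈ Rl ρ S) : z ∈ Rl ρ' S := by
  have := cm_Rl (AddMonoidHom.id M) (ρ' := ρ') (fun g hg m => by rw [h g hg]; rfl) hz
  rwa [cm_id] at this

end Aux

section Family

variable {P : Type} [Group P] {K : Subgroup P}

lemma hfree_self : ∀ (g x : P), g • x = x → g = 1 := by
  intro g x h
  rw [smul_eq_mul] at h
  exact mul_eq_right.mp h

/-- The family of large finitely generated subgroups. -/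
structure Good (K B₀ B : Subgroup P) : Prop where
  ge : B₀ ≤ B
  le : B ≤ K
  fg : B.FG

/-- Existence of the family. -/
lemma exists_family (hmax : ℕ)
    (hH : ∀ B : Subgroup P, B ≤ K → B.FG → ∃ h ≤ hmax, CS (B : Set P) h B) :
    ∃ (h₀ : ℕ) (B₀ : Subgroup P), Good K B₀ B₀ ∧
      ∀ B : Subgroup P, Good K B₀ B → CS (B : Set P) h₀ B := by
  classical
  let p : ℕ → Prop := fun h => ∃ B : Subgroup P, B ≤ K ∧ B.FG ∧ CS (B : Set P) h B
  obtain ⟨h1, hh1, hc1⟩ := hH ⊥ bot_le Subgroup.FG.bot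
  have hp1 : p h1 := ⟨⊥, bot_le, Subgroup.FG.bot, hc1⟩
  have hspec := Nat.findGreatest_spec (P := p) hh1 hp1
  set h₀ := Nat.findGreatest p hmax with hh₀
  obtain ⟨B₀, hB₀K, hB₀fg, hB₀c⟩ := hspec
  refine ⟨h₀, B₀, ⟨le_rfl, hB₀K, hB₀fg⟩, ?_⟩
  rintro B ⟨hB1, hB2, hB3⟩
  obtain ⟨h, hh, hc⟩ := hH B hB2 hB3
  have h1 : h ≤ h₀ := Nat.le_findGreatest hh ⟨B, hB2, hB3, hc⟩
  have h2 : h₀ ≤ h := (qa6a_index P P hfree_self h h₀ B₀ B hB1 hc hB₀c).1
  obtain rfl : h = h₀ := le_antisymm h1 h2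
  exact hc

variable {B₀ : Subgroup P} {h₀ : ℕ}

/-- Enlarging members of the family. -/
lemma Good.exists_ge {B : Subgroup P} (hB : Good K B₀ B) {F : Finset P}
    (hF : (F : Set P) ⊆ K) : ∃ B' : Subgroup P, Good K B₀ B' ∧ B ≤ B' ∧ (F : Set P) ⊆ B' := by
  refine ⟨B ⊔ Subgroup.closure (F : Set P), ⟨hB.ge.trans le_sup_left, ?_, ?_⟩, le_sup_left, ?_⟩
  · exact sup_le hB.le ((Subgroup.closure_le K).mpr hF)
  · exact hB.fg.sup ⟨F, rfl⟩
  · exact fun g hg => Subgroup.mem_sup_right (Subgroup.subset_closure hg)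

/-- Directedness. -/
lemma Good.sup {B B' : Subgroup P} (hB : Good K B₀ B) (hB' : Good K B₀ B') :
    Good K B₀ (B ⊔ B') :=
  ⟨hB.ge.trans le_sup_left, sup_le hB.le hB'.le, hB.fg.sup hB'.fg⟩

variable (hcs : ∀ B : Subgroup P, Good K B₀ B → CS (B : Set P) h₀ B)

include hcs

lemma Good.fund {B : Subgroup P} (hB : Good K B₀ B) : ∃ e : Ch P, Fund P (B : Set P) B h₀ e :=
  qa6a_fund P P hfree_self (B : Set P) h₀ B le_rfl (hcs B hB)

/-- The index formula in the family. -/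
lemma Good.index {B B' : Subgroup P} (hB : Good K B₀ B) (hB' : Good K B₀ B') (hle : B ≤ B')
    {e e' : Ch P} (he : Fund P (B : Set P) B h₀ e) (he' : Fund P (B' : Set P) B' h₀ e') :
    ∃ k : ℤ, k ≠ 0 ∧ (k.natAbs = 1 → B = B') ∧
      ∀ (M : Type) [AddCommGroup M] (ρ : P →* AddMonoid.End M), (∀ g ∈ K, ρ g = 1) → ∀ m : M,
        Null ρ B' (h₀ + 1) (tp e m - tp e' (k • m)) := by
  obtain ⟨k, hk, h1, h2⟩ := (qa6a_index P P hfree_self h₀ h₀ B B' hle (hcs B' hB') (hcs B hB)).2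
    rfl e e' he he'
  refine ⟨k, hk, h2, ?_⟩
  intro M _ ρ hρ m
  have h3 := cm_Null (zm m) (ρ' := ρ) (fun g hg j => by rw [hρ g (hB'.le hg)]; rfl) h1
  simpa using h3

/-- Fundamental classes are not null in `K`. -/
lemma Good.nonvan {B : Subgroup P} (hB : Good K B₀ B) {e : Ch P}
    (he : Fund P (B : Set P) B h₀ e) {M : Type} [AddCommGroup M]
    (htf : ∀ (k : ℤ) (m : M), k ≠ 0 → k • m = 0 → m = 0)
    {ρ : P →* AddMonoid.End M} (hρ : ∀ g ∈ K, ρ g = 1) {m : M}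
    (hm : Null ρ K (h₀ + 1) (tp e m)) : m = 0 := by
  obtain ⟨F, hF, h1⟩ := hm.exists_finset
  obtain ⟨B', hB', hle, hFB⟩ := hB.exists_ge hF
  obtain ⟨e', he'⟩ := hB'.fund hcs
  obtain ⟨k, hk, _, h2⟩ := hB.index hcs hB' hle he he'
  have h3 := (h1.mono ((Subgroup.closure_le B').mpr hFB)).sub (h2 M ρ hρ m)
  rw [sub_sub_cancel] at h3
  have h4 := he'.inj M ρ (fun b hb => hρ b (hB'.le hb)) _ h3
  exact htf k m hk h4

/-- Cycles of `K` are represented by fundamental classes. -/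
lemma Good.repr {B : Subgroup P} (hB : Good K B₀ B) {M : Type} [AddCommGroup M]
    {ρ : P →* AddMonoid.End M} (hρ : ∀ g ∈ K, ρ g = 1) {z : CM P M} (hz : z ∈ DG P M (h₀ + 1))
    (hb : bM z ∈ Rl ρ K) :
    ∃ (B' : Subgroup P) (e' : Ch P) (m : M), Good K B₀ B' ∧ B ≤ B' ∧
      Fund P (B' : Set P) B' h₀ e' ∧ Null ρ B' (h₀ + 1) (z - tp e' m) := by
  obtain ⟨F, hF, h1⟩ := exists_finset_Rl hb
  obtain ⟨B', hB', hle, hFB⟩ := hB.exists_ge hF
  obtain ⟨e', he'⟩ := hB'.fund hcs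
  obtain ⟨m, hm⟩ := he'.gen M ρ (fun b hb => hρ b (hB'.le hb)) z hz
    (Rl_mono ((Subgroup.closure_le B').mpr hFB) h1)
  exact ⟨B', e', m, hB', hle, he', hm⟩

/-- Vanishing above the top degree. -/
lemma Good.van {B : Subgroup P} (hB : Good K B₀ B) (M : Type) [AddCommGroup M]
    (ρ : P →* AddMonoid.End M) : ∀ q ≥ h₀ + 2, HVan P ρ K q := by
  intro q hq
  apply HVan.union
  intro F hF
  obtain ⟨B', hB', _, hFB⟩ := hB.exists_ge hF
  obtain ⟨e', he'⟩ := hB'.fund hcs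
  exact ⟨B', hFB, hB'.le, he'.van M ρ q hq⟩

/-- Rational cycles of `K` are multiples of any fundamental class. -/
lemma Good.repr_rat {B : Subgroup P} (hB : Good K B₀ B) {e : Ch P}
    (he : Fund P (B : Set P) B h₀ e) {z : CM P ℚ} (hz : z ∈ DG P ℚ (h₀ + 1))
    (hb : bM z ∈ Rl (X := P) (1 : P →* AddMonoid.End ℚ) K) :
    ∃ q : ℚ, Null (1 : P →* AddMonoid.End ℚ) K (h₀ + 1) (z - tp e q) := by
  obtain ⟨B', e', m, hB', hle, he', hm⟩ := hB.repr hcs (fun _ _ => rfl) hz hb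
  obtain ⟨k, hk, _, h2⟩ := hB.index hcs hB' hle he he'
  have hk' : (k : ℚ) ≠ 0 := by exact_mod_cast hk
  refine ⟨m / k, ?_⟩
  have h3 := (hm.sub (h2 ℚ 1 (fun _ _ => rfl) (m / k))).mono hB'.le
  have e1 : k • (m / (k : ℚ)) = m := by
    rw [zsmul_eq_mul]; field_simp
  rw [e1] at h3
  have e2 : z - tp e' m - (tp e (m / (k : ℚ)) - tp e' m) = z - tp e (m / (k : ℚ)) := by abel
  rwa [e2] at h3

omit hcs in
lemma rat_tf : ∀ (k : ℤ) (m : ℚ), k ≠ 0 → k • m = 0 → m = 0 := by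
  intro k m hk hm
  rw [zsmul_eq_mul] at hm
  rcases mul_eq_zero.mp hm with h | h
  · exact absurd (by exact_mod_cast h) hk
  · exact h

omit hcs in
lemma int_tf : ∀ (k : ℤ) (m : ℤ), k ≠ 0 → k • m = 0 → m = 0 := by
  intro k m hk hm
  rw [smul_eq_mul] at hm
  rcases mul_eq_zero.mp hm with h | h
  · exact absurd h hk
  · exact h

/-- The modular homomorphism. -/
lemma Good.exists_modular (hK : ∀ a b : P, a * b * a⁻¹ * b⁻¹ ∈ K) {B : Subgroup P}
    (hB : Good K B₀ B) {e : Ch P} (he : Fund P (B : Set P) B h₀ e) :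
    ∃ Δ : P →* ℚ, (∀ g ∈ K, Δ g = 1) ∧ ∀ (p : P) (q : ℚ),
      Null (1 : P →* AddMonoid.End ℚ) K (h₀ + 1) (tp (act p e) q - tp e (Δ p * q)) := by
  have hnorm : ∀ p : P, ∀ g ∈ K, p * g * p⁻¹ ∈ K := by
    intro p g hg
    have := K.mul_mem (hK p g) hg
    simpa [mul_assoc] using this
  have hcyc : bM (tp e (1 : ℚ)) ∈ Rl (X := P) (1 : P →* AddMonoid.End ℚ) K := by
    have := cm_Rl (zm (1 : ℚ)) (ρ' := (1 : P →* AddMonoid.End ℚ)) (fun _ _ _ => rfl) he.cyc
    have := Rl_mono hB.le this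
    simpa [cm_bM] using this
  have hex : ∀ p : P, ∃ q : ℚ, Null (1 : P →* AddMonoid.End ℚ) K (h₀ + 1)
      (tp (act p e) (1 : ℚ) - tp e q) := by
    intro p
    apply hB.repr_rat hcs he (tp_mem_DG (act_mem_Gr p he.mem) 1)
    have := aM_Rl (hnorm p) hcyc
    rw [← bM_aM] at this
    simpa using this
  choose D hD using hex
  have hDq : ∀ (p : P) (q : ℚ),
      Null (1 : P →* AddMonoid.End ℚ) K (h₀ + 1) (tp (act p e) q - tp e (D p * q)) := by
    intro p q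
    have := cm_Null (AddMonoidHom.mulRight q) (ρ' := (1 : P →* AddMonoid.End ℚ))
      (fun _ _ _ => rfl) (hD p)
    simpa using this
  have huniq : ∀ q q' : ℚ, Null (1 : P →* AddMonoid.End ℚ) K (h₀ + 1) (tp e q - tp e q') →
      q = q' := by
    intro q q' h
    rw [← tp_sub_right] at h
    exact sub_eq_zero.mp (hB.nonvan hcs he rat_tf (fun _ _ => rfl) h)
  have hone : ∀ g ∈ K, D g = 1 := by
    intro g hg
    apply huniq
    have h1 := (hD g).neg.add (Null.act_sub (ρ := (1 : P →* AddMonoid.End ℚ)) (q := h₀ + 1) hg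
      (tp e (1 : ℚ)))
    convert h1 using 1
    rw [aM_tp]
    simp
  refine ⟨⟨⟨D, hone 1 K.one_mem⟩, ?_⟩, hone, hDq⟩
  intro p p'
  show D (p * p') = D p * D p'
  apply huniq
  have h1 := ((hD p').act (hnorm p)).add (hDq p (D p'))
  have h2 := h1.sub (hD (p * p'))
  convert h2 using 1
  rw [map_sub, aM_tp, aM_tp, ← act_mul]
  simp

/-- The modular homomorphism bounds the length. -/
lemma Good.length_le (hK : ∀ a b : P, a * b * a⁻¹ * b⁻¹ ∈ K) (htop : QA6b_top) {l : ℕ}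
    (hl : ZC K l ⊤) {n : ℕ} (hn : ∀ (M : Type) [AddCommGroup M] (ρ : P →* AddMonoid.End M),
      ∀ q ≥ n + 2, ∃ m : ℤ, m ≠ 0 ∧ ∀ z ∈ DG P M q, bM z ∈ Rl ρ (⊤ : Subgroup P) →
        Null ρ ⊤ q (m • z)) {B : Subgroup P}
    (hB : Good K B₀ B) : h₀ + 1 + l ≤ n + 1 := by
  by_contra hcon
  obtain ⟨e, he⟩ := hB.fund hcs
  obtain ⟨Δ, hΔK, hΔ⟩ := hB.exists_modular hcs hK he
  -- the twisted coefficients
  let χ : P →* ℚ :=
    { toFun := fun p => Δ p⁻¹
      map_one' := by simp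
      map_mul' := fun a b => by
        show Δ (a * b)⁻¹ = Δ a⁻¹ * Δ b⁻¹
        rw [mul_inv_rev, map_mul, mul_comm] }
  let ρ : P →* AddMonoid.End ℚ := (DistribMulAction.toAddMonoidEnd ℚ ℚ).comp χ
  have hρ : ∀ (p : P) (q : ℚ), ρ p q = Δ p⁻¹ * q := fun p q => rfl
  have hρK : ∀ g ∈ K, ρ g = 1 := by
    intro g hg
    ext q
    rw [hρ, hΔK _ (K.inv_mem hg), one_mul]
    rfl
  obtain ⟨hvan, Ov, hsub, hnull, hup, hdown⟩ := htop P P hfree_self K hK l hl (h₀ + 1) ℚ ρ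
    (hB.van hcs ℚ ρ)
  have hcyc : bM (tp e (1 : ℚ)) ∈ Rl ρ K := by
    have := cm_Rl (zm (1 : ℚ)) (ρ' := (1 : P →* AddMonoid.End ℚ)) (fun _ _ _ => rfl) he.cyc
    have := Rl_mono hB.le this
    have := Rl_congr_rho (ρ' := ρ) (fun g hg => (hρK g hg).symm) this
    simpa [cm_bM] using this
  have hinv : ∀ p : P, Null ρ K (h₀ + 1) (aM ρ p (tp e (1 : ℚ)) - tp e (1 : ℚ)) := by
    intro p
    have h1 := hΔ p (ρ p 1)
    have e1 : Δ p * (ρ p) 1 = 1 := by
      rw [hρ, mul_one, ← map_mul, mul_inv_cancel, map_one]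
    rw [e1] at h1
    rw [aM_tp]
    exact h1.congr_rho (fun g hg => (hρK g hg).symm)
  obtain ⟨z, hz, hbz, hov⟩ := hdown (tp e (1 : ℚ)) (tp_mem_DG he.mem 1) hcyc hinv
  obtain ⟨m, hm, hmz⟩ := hn ℚ ρ (h₀ + 1 + l) (by omega)
  have h1 := hmz z hz hbz
  -- `Ov (m • z) (m • y)`
  have hov0 : Ov 0 0 := by simpa using hsub _ _ _ _ hov hov
  have hovneg : ∀ {z y}, Ov z y → Ov (-z) (-y) := fun h => by simpa using hsub _ _ _ _ hov0 h
  have hovadd : ∀ {z y z' y'}, Ov z y → Ov z' y' → Ov (z + z') (y + y') := fun h h' => by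
    simpa using hsub _ _ _ _ h (hovneg h')
  have hovnat : ∀ k : ℕ, Ov (k • z) (k • tp e (1 : ℚ)) := by
    intro k
    induction k with
    | zero => simpa using hov0
    | succ k ih =>
      rw [succ_nsmul, succ_nsmul]
      exact hovadd ih hov
  have hovm : Ov (m • z) (m • tp e (1 : ℚ)) := by
    rcases Int.eq_nat_or_neg m with ⟨k, rfl | rfl⟩
    · simpa using hovnat k
    · simpa using hovneg (hovnat k)
  have h2 := (hnull _ _ hovm).mp h1
  rw [← tp_smul_right] at h2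
  have h3 := hB.nonvan hcs he rat_tf hρK h2
  have h4 := rat_tf m 1 hm h3
  exact one_ne_zero h4

/-- Integral cycles of `K` which are rationally null are null. -/
lemma Good.descend {B : Subgroup P} (hB : Good K B₀ B) {w : CM P ℤ} (hw : w ∈ DG P ℤ (h₀ + 1))
    (hb : bM w ∈ Rl (X := P) (1 : P →* AddMonoid.End ℤ) K)
    (hn : Null (1 : P →* AddMonoid.End ℚ) K (h₀ + 1) (cm (Int.castAddHom ℚ) w)) :
    Null (1 : P →* AddMonoid.End ℤ) K (h₀ + 1) w := by
  obtain ⟨B', e', m, hB', _, he', hm⟩ := hB.repr hcs (fun _ _ => rfl) hw hb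
  have h1 := cm_Null (Int.castAddHom ℚ) (ρ' := (1 : P →* AddMonoid.End ℚ)) (fun _ _ _ => rfl) hm
  have h2 := hn.sub (h1.mono hB'.le)
  rw [map_sub, cm_tp, sub_sub_cancel] at h2
  have h3 := hB'.nonvan hcs he' rat_tf (fun _ _ => rfl) h2
  have h4 : m = 0 := by
    have : ((m : ℤ) : ℚ) = 0 := h3
    exact_mod_cast this
  rw [h4, tp_zero_right, sub_zero] at hm
  exact hm.mono hB'.le

/-- If there is an invariant class then all fundamental classes are invariant. -/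
lemma Good.invariant (hK : ∀ a b : P, a * b * a⁻¹ * b⁻¹ ∈ K) {y : CM P ℤ}
    (hy : y ∈ DG P ℤ (h₀ + 1)) (hyb : bM y ∈ Rl (X := P) (1 : P →* AddMonoid.End ℤ) K)
    (hyi : ∀ p : P, Null (1 : P →* AddMonoid.End ℤ) K (h₀ + 1)
      (aM (1 : P →* AddMonoid.End ℤ) p y - y))
    (hyn : ¬ Null (1 : P →* AddMonoid.End ℤ) K (h₀ + 1) y) {B : Subgroup P} (hB : Good K B₀ B)
    {e : Ch P} (he : Fund P (B : Set P) B h₀ e) (p : P) :
    Null (1 : P →* AddMonoid.End ℤ) K (h₀ + 1)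
      (aM (1 : P →* AddMonoid.End ℤ) p (tp e 1) - tp e 1) := by
  have hnorm : ∀ p : P, ∀ g ∈ K, p * g * p⁻¹ ∈ K := by
    intro p g hg
    have := K.mul_mem (hK p g) hg
    simpa [mul_assoc] using this
  obtain ⟨Δ, _, hΔ⟩ := hB.exists_modular hcs hK he
  have huniq : ∀ q q' : ℚ, Null (1 : P →* AddMonoid.End ℚ) K (h₀ + 1) (tp e q - tp e q') →
      q = q' := by
    intro q q' h
    rw [← tp_sub_right] at h
    exact sub_eq_zero.mp (hB.nonvan hcs he rat_tf (fun _ _ => rfl) h)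
  -- the rational image of `y`
  set y' : CM P ℚ := cm (Int.castAddHom ℚ) y with hy'
  have h1 : bM y' ∈ Rl (X := P) (1 : P →* AddMonoid.End ℚ) K := by
    rw [hy', ← cm_bM]
    exact cm_Rl _ (fun _ _ _ => rfl) hyb
  obtain ⟨q, hq⟩ := hB.repr_rat hcs he (cm_DG _ hy) h1
  have hq0 : q ≠ 0 := by
    rintro rfl
    rw [tp_zero_right, sub_zero] at hq
    exact hyn (hB.descend hcs hy hyb hq)
  have h2 := cm_Null (Int.castAddHom ℚ) (ρ' := (1 : P →* AddMonoid.End ℚ)) (fun _ _ _ => rfl)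
    (hyi p)
  rw [map_sub, cm_aM (Int.castAddHom ℚ) (1 : P →* AddMonoid.End ℤ) (1 : P →* AddMonoid.End ℚ)
    (g := p) (fun _ => rfl), ← hy'] at h2
  -- `Δ p = 1`
  have h3 : Δ p * q = q := by
    apply huniq
    have h4 := ((hΔ p q).neg.sub (hq.act (hnorm p))).add (h2.add hq)
    convert h4 using 1
    rw [map_sub, aM_tp]
    simp only [MonoidHom.one_apply, AddMonoid.End.one_apply]
    abel
  have h4 : Δ p = 1 := mul_right_cancel₀ hq0 (by rw [h3, one_mul])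
  have hecyc : bM (tp e (1 : ℤ)) ∈ Rl (X := P) (1 : P →* AddMonoid.End ℤ) K :=
    Rl_mono hB.le he.cyc
  apply hB.descend hcs
  · exact AddSubgroup.sub_mem _ (aM_mem _ p (tp_mem_DG he.mem 1)) (tp_mem_DG he.mem 1)
  · rw [map_sub, bM_aM]
    exact AddSubgroup.sub_mem _ (aM_Rl (hnorm p) hecyc) hecyc
  · have h5 := hΔ p 1
    rw [h4, one_mul] at h5
    convert h5 using 1
    rw [map_sub, aM_tp, cm_tp, cm_tp]
    simp

end Family

/-- (QA6) from (QA6b_top). -/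
theorem qa6_of_top (htop : QA6b_top) : QA6 := by
  intro P _ K hK l hl hmax hH n hn c hc hcb z hz hzb hcz
  obtain ⟨h₀, B₀, hB₀, hcs⟩ := exists_family hmax hH
  have hle := hB₀.length_le hcs hK htop hl hn
  obtain ⟨hvan, Ov, hsub, hnull, hup, hdown⟩ := htop P P hfree_self K hK l hl (h₀ + 1) ℤ 1
    (hB₀.van hcs ℤ 1)
  have hzD : tp z (1 : ℤ) ∈ DG P ℤ (n + 1) := tp_mem_DG hz 1
  have hcE : ∀ {x : CM P ℤ}, x ∈ DG P ℤ (n + 1) →
      Null (1 : P →* AddMonoid.End ℤ) ⊤ (n + 1) x → cE c x = 0 := fun hx hxn =>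
    cE_null (Nat.succ_ne_zero n) hc hcb hx hxn
  have heq : h₀ + 1 + l = n + 1 := by
    by_contra hne
    have h1 := hvan (n + 1) (by omega) _ hzD hzb
    have h2 := hcE hzD h1
    rw [cE_tp, smul_eq_mul, mul_one] at h2
    exact hcz h2
  rw [heq] at hnull hup hdown
  obtain ⟨y, hy, hyb, hyi, hov⟩ := hup _ hzD hzb
  have hyn : ¬ Null (1 : P →* AddMonoid.End ℤ) K (h₀ + 1) y := by
    intro h1
    have h2 := hcE hzD ((hnull _ _ hov).mpr h1)
    rw [cE_tp, smul_eq_mul, mul_one] at h2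
    exact hcz h2
  -- linearity of `Ov`
  have hov0 : Ov 0 0 := by simpa using hsub _ _ _ _ hov hov
  have hovneg : ∀ {z y}, Ov z y → Ov (-z) (-y) := fun h => by simpa using hsub _ _ _ _ hov0 h
  have hovadd : ∀ {z y z' y'}, Ov z y → Ov z' y' → Ov (z + z') (y + y') := fun h h' => by
    simpa using hsub _ _ _ _ h (hovneg h')
  have hovsmul : ∀ {z y}, Ov z y → ∀ k : ℤ, Ov (k • z) (k • y) := by
    intro z y hzy
    have hovnat : ∀ k : ℕ, Ov (k • z) (k • y) := by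
      intro k
      induction k with
      | zero => simpa using hov0
      | succ k ih =>
        rw [succ_nsmul, succ_nsmul]
        exact hovadd ih hzy
    intro k
    rcases Int.eq_nat_or_neg k with ⟨k, rfl | rfl⟩
    · simpa using hovnat k
    · simpa using hovneg (hovnat k)
  -- lifts of fundamental classes
  have hlift : ∀ {B : Subgroup P}, Good K B₀ B → ∀ {e : Ch P}, Fund P (B : Set P) B h₀ e →
      ∃ x ∈ DG P ℤ (n + 1), Ov x (tp e 1) := by
    intro B hB e he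
    obtain ⟨x, hx, _, hxo⟩ := hdown _ (tp_mem_DG he.mem 1) (Rl_mono hB.le he.cyc)
      (hB.invariant hcs hK hy hyb hyi hyn he)
    exact ⟨x, hx, hxo⟩
  have hval : ∀ {B : Subgroup P}, Good K B₀ B → ∀ {e : Ch P}, Fund P (B : Set P) B h₀ e →
      ∀ {x : CM P ℤ}, x ∈ DG P ℤ (n + 1) → Ov x (tp e 1) → cE c x ≠ 0 := by
    intro B hB e he x hx hxo h0
    obtain ⟨B', e', m', hB', hBB', he', hm'⟩ := hB.repr hcs (fun _ _ => rfl) hy hyb
    obtain ⟨k, hk, _, h2⟩ := hB.index hcs hB' hBB' he he'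
    have h3 := h2 ℤ 1 (fun _ _ => rfl) 1
    have h4 := ((hm'.zsmul k).sub (h3.zsmul m')).mono hB'.le
    have h5 : Null (1 : P →* AddMonoid.End ℤ) K (h₀ + 1) (k • y - m' • tp e (1 : ℤ)) := by
      convert h4 using 1
      rw [smul_sub, smul_sub, ← tp_smul_right k, ← tp_smul_right m' e', smul_smul, smul_eq_mul,
        smul_eq_mul, mul_one, mul_comm m' k]
      abel
    have h6 := hsub _ _ _ _ (hovsmul hov k) (hovsmul hxo m')
    have h7 := hcE (AddSubgroup.sub_mem _ (AddSubgroup.zsmul_mem _ hzD k)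
      (AddSubgroup.zsmul_mem _ hx m')) ((hnull _ _ h6).mpr h5)
    rw [map_sub, map_zsmul, map_zsmul, h0, smul_zero, sub_zero, cE_tp, smul_eq_mul, smul_eq_mul,
      mul_one] at h7
    exact (mul_ne_zero hk hcz) h7
  -- the minimal value
  let p : ℕ → Prop := fun k => ∃ (B : Subgroup P) (e : Ch P) (x : CM P ℤ), Good K B₀ B ∧
    Fund P (B : Set P) B h₀ e ∧ x ∈ DG P ℤ (n + 1) ∧ Ov x (tp e 1) ∧ (cE c x).natAbs = k
  have hp : ∃ k, p k := by
    obtain ⟨e, he⟩ := hB₀.fund hcs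
    obtain ⟨x, hx, hxo⟩ := hlift hB₀ he
    exact ⟨_, B₀, e, x, hB₀, he, hx, hxo, rfl⟩
  classical
  obtain ⟨B, e, x, hB, he, hx, hxo, hxk⟩ := Nat.find_spec hp
  have hKB : K ≤ B := by
    intro g hg
    obtain ⟨B', hB', hBB', hgB⟩ := hB.exists_ge (F := {g}) (by simpa using hg)
    obtain ⟨e', he'⟩ := hB'.fund hcs
    obtain ⟨x', hx', hxo'⟩ := hlift hB' he'
    obtain ⟨k, hk, hk1, h2⟩ := hB.index hcs hB' hBB' he he'
    have h3 := (h2 ℤ 1 (fun _ _ => rfl) 1).mono hB'.le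
    have h4 : Null (1 : P →* AddMonoid.End ℤ) K (h₀ + 1) (tp e 1 - k • tp e' (1 : ℤ)) := by
      rwa [← tp_smul_right]
    have h5 := hsub _ _ _ _ hxo (hovsmul hxo' k)
    have h6 := hcE (AddSubgroup.sub_mem _ hx (AddSubgroup.zsmul_mem _ hx' k))
      ((hnull _ _ h5).mpr h4)
    rw [map_sub, map_zsmul, sub_eq_zero, smul_eq_mul] at h6
    have h7 : Nat.find hp ≤ (cE c x').natAbs :=
      Nat.find_min' hp ⟨B', e', x', hB', he', hx', hxo', rfl⟩
    rw [← hxk, h6, Int.natAbs_mul] at h7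
    have h8 : 0 < (cE c x').natAbs := Int.natAbs_pos.mpr (hval hB' he' hx' hxo')
    have h9 : k.natAbs ≤ 1 := by
      by_contra h10
      have h11 : 2 ≤ k.natAbs := by omega
      have h12 := Nat.mul_le_mul_right (cE c x').natAbs h11
      omega
    have h10 : k.natAbs = 1 := by
      have := Int.natAbs_pos.mpr hk
      omega
    rw [hk1 h10]
    exact hgB (by simp)
  rw [le_antisymm hKB hB.le]
  exact hB.fg

end Vale.Agent.P188.H882
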