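import Vale.Agent.P188.H382.AsmA2

/-!
Addition in the Lie algebra of `E` against multiplication in `E`: they agree modulo `[E, E]`.
-/

set_option linter.all false

namespace Vale.Agent.P188.H854

open Vale.Agent.P188 Agent.P188.H428
open Vale.Agent.P188.H796 Vale.Agent.P188.H615 Vale.Agent.P188.H269 Vale.Agent.P188.H382
open Vale.Agent.P188.Z1 (RModel Conc)
open scoped commutatorElement

variable {Γ : Type} [Group Γ] {k : ℕ} {η : Γ →* Multiplicative (Fin k → ℤ)} {d n : ℕ}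
  {D : MB η.ker d n} {hη : Function.Surjective η} {F : Set Γ} {t : D.S}
  {M : RModel D.S Γ D.R.V k}

/-- `(exp v exp w)⁻¹ exp (v + w)` is the exponential of a sum of brackets -/
theorem Lo_add_mem_gam (e : LieIdeal ℝ D.R.V) {v w : D.R.V} (hv : v ∈ e) (hw : w ∈ e) :
    D.R.Lo ((D.R.Ex v * D.R.Ex w)⁻¹ * D.R.Ex (v + w)) ∈ gam D.R e.toSubmodule 1 := by
  have h1 : (D.R.Ex v * D.R.Ex w)⁻¹ * D.R.Ex v = (D.R.Ex w)⁻¹ := by group
  have h2 : D.R.Lo ((D.R.Ex v * D.R.Ex w)⁻¹ * D.R.Ex v) = -w := by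
    rw [h1, Lo_inv, D.R.Lo_Ex]
  have h := Lo_mul_Ex_add' D.R (H := e.toSubmodule) (I := e.toSubmodule)
    (I' := gam D.R e.toSubmodule 1) le_rfl (gam_le (ideal_lie e) 1)
    (fun x hx y hy => lie_mem_gam (i := 0) hx hy) ((D.R.Ex v * D.R.Ex w)⁻¹) hv hw
    (by rw [h2]; exact e.toSubmodule.neg_mem hw)
  rw [h2] at h
  have h3 : D.R.Lo ((D.R.Ex v * D.R.Ex w)⁻¹ * D.R.Ex (v + w)) - -w - w =
      D.R.Lo ((D.R.Ex v * D.R.Ex w)⁻¹ * D.R.Ex (v + w)) := by abel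
  rwa [h3] at h

theorem ex_add_mod_conc (hM : Conc D hη F t M) : ∀ v ∈ M.e, ∀ w ∈ M.e,
    (M.ex v * M.ex w)⁻¹ * M.ex (v + w) ∈ (⁅M.E, M.E⁆ : Subgroup D.S) := by
  intro v hv w hw
  rw [hM.e_eq] at hv hw
  rw [hM.ex_eq, hM.E_eq]
  change _ ∈ lcs (ER (eId D.AdE t)) 1
  rw [lcs_ER]
  refine mem_ERi.2 ⟨_, Lo_add_mem_gam (eId D.AdE t) hv hw, ?_⟩
  rw [MB.ex, D.R.Ex_Lo, map_mul, map_inv, map_mul]
  rfl

theorem ex_add_mod {B : M.NatBox} (hB : BoxData D hη F t M B) : ∀ v ∈ M.e, ∀ w ∈ M.e,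
    (M.ex v * M.ex w)⁻¹ * M.ex (v + w) ∈ (⁅M.E, M.E⁆ : Subgroup D.S) :=
  ex_add_mod_conc hB.conc

end Vale.Agent.P188.H854
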