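import Vale.Agent.P188.H882.HS

/-!
Existence of fundamental classes of poly-infinite-cyclic groups with central factors (QA6a_fund).
-/

universe u v w

namespace Vale.Agent.P188.H882

open Finsupp TensorProduct

section Aux

variable {X : Type v} {M : Type w} [AddCommGroup M]

lemma cns_mem_Gr (x : X) {q : ℕ} {u : Ch X} (hu : u ∈ Sp (Gr q : Set (List X))) :
    cns x u ∈ Sp (Gr (q + 1) : Set (List X)) :=
  cns_mem (fun l hl => by rw [mem_Gr] at hl ⊢; simp [hl]) hu

lemma bM_cns (x : X) (z : CM X M) : bM (tm (cns x) z) = z - tm (cns x) (bM z) := by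
  have := cm_ext (f := bM.comp (tm (M := M) (cns x)))
    (g := AddMonoidHom.id _ - (tm (cns x)).comp bM) (by
      intro u m
      simp only [AddMonoidHom.comp_apply, tm_tp, bM_tp, AddMonoidHom.sub_apply,
        AddMonoidHom.id_apply]
      rw [bd_cns, tp_sub_left]) z
  simpa using this

lemma cns_mem_DG (x : X) {q : ℕ} {z : CM X M} (hz : z ∈ DG X M q) :
    tm (cns x) z ∈ DG X M (q + 1) :=
  tm_mem (fun _ hu => cns_mem_Gr x hu) hz

/-- Augmentation: the coefficient of the empty list. -/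
noncomputable def eps : CM X M →+ M :=
  ((TensorProduct.lid ℤ M).toLinearMap ∘ₗ
    LinearMap.rTensor M (Finsupp.lapply ([] : List X))).toAddMonoidHom

@[simp] lemma eps_tp (u : Ch X) (m : M) : eps (tp u m) = u [] • m := by
  show (TensorProduct.lid ℤ M) (LinearMap.rTensor M (Finsupp.lapply ([] : List X)) (u ⊗ₜ m)) = _
  rw [LinearMap.rTensor_tmul, TensorProduct.lid_tmul]
  rfl

lemma eps_DG {q : ℕ} (hq : q ≠ 0) {z : CM X M} (hz : z ∈ DG X M q) : eps z = 0 := by
  have := dg_ext (f := eps) (g := (0 : CM X M →+ M)) (fun u m hu => by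
    rw [eps_tp]
    have : u [] = 0 := by
      by_contra h
      have := mem_Sp.mp hu [] h
      rw [mem_Gr] at this
      simp at this
      exact hq this.symm
    rw [this, zero_smul]; rfl) hz
  simpa using this

lemma eq_of_DG_zero {z : CM X M} (hz : z ∈ DG X M 0) : z = tp (single [] 1) (eps z) := by
  let f : CM X M →+ CM X M :=
    ⟨⟨fun z => tp (single [] 1) (eps z), by simp⟩, fun a b => by
      show tp _ (eps (a + b)) = _
      rw [map_add, tp_add_right]⟩
  have := dg_ext (f := AddMonoidHom.id _) (g := f) (fun u m hu => by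
    show tp u m = tp (single [] 1) (eps (tp u m))
    have h0 : u = single [] (u []) := by
      ext l
      by_cases hl : l = []
      · subst hl; simp
      · rw [single_eq_of_ne hl]
        by_contra h
        have := mem_Sp.mp hu l h
        rw [mem_Gr] at this
        exact hl (List.length_eq_zero_iff.mp this)
    rw [eps_tp, tp_smul_right, ← tp_smul_left, smul_single, smul_eq_mul, mul_one, ← h0]) hz
  exact this

/-- Integral chains with coefficients are chains. -/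
lemma exists_tp_one (z : CM X ℤ) : ∃ u : Ch X, z = tp u 1 := by
  induction z using cm_ind with
  | h0 => exact ⟨0, by simp⟩
  | h1 u m =>
    refine ⟨m • u, ?_⟩
    rw [tp_smul_left, ← tp_smul_right]
    simp
  | h2 x y hx hy =>
    obtain ⟨u, rfl⟩ := hx
    obtain ⟨v, rfl⟩ := hy
    exact ⟨u + v, (tp_add_left u v 1).symm⟩

lemma exists_tp_one_DG {q : ℕ} {z : CM X ℤ} (hz : z ∈ DG X ℤ q) :
    ∃ u ∈ Sp (Gr q : Set (List X)), z = tp u 1 := by
  obtain ⟨u, rfl⟩ := exists_tp_one z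
  refine ⟨flt q u, flt_mem q u, ?_⟩
  rw [← fM_tp]
  exact (mem_DG.mp hz).symm

variable {M' : Type*} [AddCommGroup M']

lemma cm_tm {T : Ch X →ₗ[ℤ] Ch X} (f : M →+ M') (z : CM X M) :
    cm f (tm T z) = tm T (cm f z) := by
  have := cm_ext (f := (cm f).comp (tm (M := M) T)) (g := (tm T).comp (cm f)) (by
    intro u m; simp) z
  simpa using this

lemma cm_bM (f : M →+ M') (z : CM X M) : cm f (bM z) = bM (cm f z) := cm_tm f z

lemma cm_DG (f : M →+ M') {q : ℕ} {z : CM X M} (hz : z ∈ DG X M q) : cm f z ∈ DG X M' q := by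
  rw [mem_DG] at hz ⊢
  have : cm f (fM q z) = fM q (cm f z) := cm_tm f z
  rw [← this, hz]

variable {P : Type u} [Group P] [MulAction P X]

lemma cm_aM (f : M →+ M') (ρ : P →* AddMonoid.End M) (ρ' : P →* AddMonoid.End M') {g : P}
    (h : ∀ m, f (ρ g m) = ρ' g (f m)) (z : CM X M) : cm f (aM ρ g z) = aM ρ' g (cm f z) := by
  have := cm_ext (f := (cm f).comp (aM (X := X) ρ g)) (g := (aM ρ' g).comp (cm f)) (by
    intro u m; simp [h]) z
  simpa using this

lemma cm_Rl (f : M →+ M') {ρ : P →* AddMonoid.End M} {ρ' : P →* AddMonoid.End M'}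
    {S : Subgroup P} (h : ∀ g ∈ S, ∀ m, f (ρ g m) = ρ' g (f m)) {z : CM X M} (hz : z ∈ Rl ρ S) :
    cm f z ∈ Rl ρ' S := by
  have : Rl (X := X) ρ S ≤ (Rl ρ' S).comap (cm f) := by
    apply Rl_le
    · intro g hg u
      show cm f (aM ρ g u - u) ∈ Rl ρ' S
      rw [map_sub, cm_aM f ρ ρ' (h g hg)]
      exact sub_mem_Rl hg _
    · intro z hz
      exact DG_le_Rl S (cm_DG f hz)
  exact this hz

lemma cm_Null (f : M →+ M') {ρ : P →* AddMonoid.End M} {ρ' : P →* AddMonoid.End M'}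
    {S : Subgroup P} (h : ∀ g ∈ S, ∀ m, f (ρ g m) = ρ' g (f m)) {q : ℕ} {z : CM X M}
    (hz : Null ρ S q z) : Null ρ' S q (cm f z) := by
  obtain ⟨w, hw, e⟩ := hz
  refine ⟨cm f w, cm_DG f hw, ?_⟩
  rw [← cm_bM, ← map_sub]
  exact cm_Rl f h e

lemma Rl_bot_le (ρ : P →* AddMonoid.End M) : Rl (X := X) ρ (⊥ : Subgroup P) ≤ DG X M 0 := by
  apply Rl_le
  · intro g hg u
    rw [Subgroup.mem_bot] at hg
    subst hg
    rw [aM_one, sub_self]
    exact AddSubgroup.zero_mem _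
  · exact le_rfl

/-- The map `ℤ → M`, `k ↦ k m`. -/
def zm (m : M) : ℤ →+ M := ⟨⟨fun k => k • m, zero_smul _ m⟩, fun a b => add_smul a b m⟩

@[simp] lemma zm_apply (m : M) (k : ℤ) : zm m k = k • m := rfl

end Aux

section Fund

variable {P X : Type} [Group P] [MulAction P X]

/-- An invariant class of degree zero. -/
lemma fund_zero (S : Set P) (x₀ : X) : Fund X S (⊥ : Subgroup P) 0 (single [x₀] 1) where
  mem := single_mem_Sp (by simp [Gr]) 1
  cyc := by
    rw [bM_tp]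
    have : bd (single [x₀] (1 : ℤ)) = single [] 1 := by simp [dl_cons]
    rw [this]
    exact DG_le_Rl _ (tp_mem_DG (single_mem_Sp (by simp [Gr]) 1) 1)
  ori := by
    intro p hp
    have h1 : aM (1 : P →* AddMonoid.End ℤ) p (tp (single [x₀] 1) (1 : ℤ)) - tp (single [x₀] 1) 1
        = bM (tm (cns x₀) (aM (1 : P →* AddMonoid.End ℤ) p (tp (single [x₀] 1) (1 : ℤ)))) := by
      rw [bM_cns, bM_aM]
      congr 1
      simp [dl_cons, act_single]
    rw [h1]
    apply Null.of_bM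
    apply cns_mem_DG
    apply aM_mem
    exact tp_mem_DG (single_mem_Sp (by simp [Gr]) 1) 1
  gen := by
    intro M _ ρ _ z hz _
    refine ⟨eps (bM z), ?_⟩
    have h1 : z - tp (single [x₀] 1) (eps (bM z)) = bM (tm (cns x₀) z) := by
      rw [bM_cns]
      congr 1
      have h2 := eq_of_DG_zero (bM_mem hz)
      nth_rewrite 2 [h2]
      rw [tm_tp, cns_single]
    rw [h1]
    exact Null.of_bM (cns_mem_DG x₀ hz)
  inj := by
    intro M _ ρ _ m hm
    obtain ⟨w, hw, e⟩ := hm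
    have h0 := Rl_bot_le ρ e
    have h1 : tp (single [x₀] 1) m - bM w ∈ DG X M 1 :=
      AddSubgroup.sub_mem _ (tp_mem_DG (single_mem_Sp (by simp [Gr]) 1) m) (bM_mem hw)
    have h2 : tp (single [x₀] 1) m - bM w = 0 := by
      rw [← mem_DG.mp h1, fM_eq_zero (by omega) h0]
    have h3 : bM (tp (single [x₀] 1) m) = 0 := by
      rw [sub_eq_zero.mp h2, bM_bM]
    have h4 := congrArg eps h3
    simpa [dl_cons] using h4
  van := by
    intro M _ ρ q hq z hz hb
    obtain ⟨q, rfl⟩ : ∃ q', q = q' + 1 := ⟨q - 1, by omega⟩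
    have h0 := Rl_bot_le ρ hb
    have h1 : bM z = 0 := by
      rw [← mem_DG.mp (bM_mem hz), fM_eq_zero (by omega) h0]
    have h2 : z = bM (tm (cns x₀) z) := by
      rw [bM_cns, h1, map_zero, sub_zero]
    rw [h2]
    exact Null.of_bM (cns_mem_DG x₀ hz)

/-- Integral relations give relations with coefficients. -/
lemma zm_rel {N : Subgroup P} {t : P} {M : Type} [AddCommGroup M] {ρ : P →* AddMonoid.End M}
    (hρ : ∀ b ∈ N, ρ b = 1) (hρt : ρ t = 1) {e e' : Ch X}
    (he : bM (tp e' (1 : ℤ)) - (aM (1 : P →* AddMonoid.End ℤ) t (tp e 1) - tp e 1) ∈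
      Rl (X := X) (M := ℤ) (1 : P →* AddMonoid.End ℤ) N) (m : M) :
    bM (tp e' m) - (aM ρ t (tp e m) - tp e m) ∈ Rl ρ N := by
  have h1 := cm_Rl (zm m) (ρ' := ρ) (fun g hg k => by rw [hρ g hg]; rfl) he
  rw [map_sub, map_sub, cm_aM (zm m) _ ρ (fun k => by rw [hρt]; rfl)] at h1
  simpa using h1

/-- The inductive step. -/
lemma fund_step (hfree : ∀ (g : P) (x : X), g • x = x → g = 1) {S : Set P} {N B : Subgroup P}
    {t : P} {h : ℕ} (hBS : (B : Set P) ⊆ S) (hz : ZExt N B t)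
    (hS : ∀ p ∈ S, (∀ g ∈ N, p * g * p⁻¹ ∈ N) ∧ t⁻¹ * (p * t * p⁻¹) ∈ N) {e : Ch X}
    (he : Fund X S N h e) :
    ∃ e' : Ch X, Fund X S B (h + 1) e' ∧
      bM (tp e' (1 : ℤ)) - (aM (1 : P →* AddMonoid.End ℤ) t (tp e 1) - tp e 1) ∈
        Rl (X := X) (M := ℤ) (1 : P →* AddMonoid.End ℤ) N := by
  obtain ⟨w, hw, hwe⟩ := he.ori t (hBS hz.mem)
  obtain ⟨e', he', rfl⟩ := exists_tp_one_DG hw
  have hrel : bM (tp e' (1 : ℤ)) - (aM (1 : P →* AddMonoid.End ℤ) t (tp e 1) - tp e 1) ∈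
      Rl (X := X) (M := ℤ) (1 : P →* AddMonoid.End ℤ) N := by
    rw [← neg_sub]
    exact AddSubgroup.neg_mem _ hwe
  have heD : tp e (1 : ℤ) ∈ DG X ℤ (h + 1) := tp_mem_DG he.mem 1
  refine ⟨e', ⟨he', ?_, ?_, ?_, ?_, ?_⟩, hrel⟩
  · have h1 := AddSubgroup.add_mem _ (Rl_mono hz.le hrel)
      (sub_mem_Rl (ρ := (1 : P →* AddMonoid.End ℤ)) hz.mem (tp e (1 : ℤ)))
    simpa using h1
  · intro p hp
    obtain ⟨hp1, hp2⟩ := hS p hp
    have h1 := delta_conj hz hp1 hp2 hrel
    have h2 := AddSubgroup.sub_mem _ h1 hrel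
    apply delta_inj hz (he.van ℤ 1 (h + 2) le_rfl)
      (y := aM (1 : P →* AddMonoid.End ℤ) p (tp e 1) - tp e 1)
      (AddSubgroup.sub_mem _ (aM_mem _ p (tp_mem_DG he' 1)) (tp_mem_DG he' 1)) _ (he.ori p hp)
    convert h2 using 1
    rw [map_sub, map_sub]
    abel
  · intro M _ ρ hρ z hzd hb
    obtain ⟨y, hy, e1, e2⟩ := delta_exists hz hfree hzd hb
    have hρN : ∀ b ∈ N, ρ b = 1 := fun b hb => hρ b (hz.le hb)
    obtain ⟨m, hm⟩ := he.gen M ρ hρN y hy e2
    refine ⟨m, ?_⟩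
    have h1 := zm_rel hρN (hρ t hz.mem) hrel m
    have h2 := AddSubgroup.sub_mem _ e1 h1
    apply delta_inj hz (he.van M ρ (h + 2) le_rfl) (y := y - tp e m)
      (AddSubgroup.sub_mem _ hzd (tp_mem_DG he' m)) _ hm
    convert h2 using 1
    rw [map_sub, map_sub]
    abel
  · intro M _ ρ hρ m hm
    have hρN : ∀ b ∈ N, ρ b = 1 := fun b hb => hρ b (hz.le hb)
    have h1 := zm_rel hρN (hρ t hz.mem) hrel m
    exact he.inj M ρ hρN m (delta_null hz hfree (tp_mem_DG he' m) (tp_mem_DG he.mem m) h1 hm)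
  · intro M _ ρ q hq
    obtain ⟨q, rfl⟩ : ∃ q', q = q' + 1 := ⟨q - 1, by omega⟩
    exact wang_van hz hfree (he.van M ρ (q + 1) (by omega)) (he.van M ρ q (by omega))

end Fund

/-- (QA6a.1) -/
theorem qa6a_fund : QA6a_fund := by
  intro P X _ _ _ hfree S h
  induction h with
  | zero =>
    intro B _ hB
    obtain rfl : B = ⊥ := hB
    obtain ⟨x₀⟩ := ‹Nonempty X›
    exact ⟨_, fund_zero S x₀⟩
  | succ h ih =>
    rintro B hBS ⟨N, t, hz, hN, hS⟩
    obtain ⟨e, he⟩ := ih N (fun g hg => hBS (hz.le hg)) hN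
    obtain ⟨e', he', _⟩ := fund_step hfree hBS hz hS he
    exact ⟨e', he'⟩

end Vale.Agent.P188.H882
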