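import Vale.Agent.P188.H854.Fund

/-!
The index formula for fundamental classes (QA6a_index).
-/

universe u v w

namespace Vale.Agent.P188.H882

open Finsupp

section Group

variable {P : Type u} [Group P] {N B L : Subgroup P} {t : P}

/-- The exponent of `t`, as a homomorphism. -/
lemma exists_exp (h : ZExt N B t) : ∃ χ : B →* Multiplicative ℤ,
    χ ⟨t, h.mem⟩ = Multiplicative.ofAdd 1 ∧ ∀ b : B, χ b = 1 ↔ (b : P) ∈ N := by
  classical
  have hex : ∀ b : B, ∃ i : ℤ, (b : P) * t ^ (-i) ∈ N := fun b => by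
    obtain ⟨i, hi⟩ := h.gen b b.2
    exact ⟨-i, by simpa using hi⟩
  choose e he using hex
  have uniq : ∀ (b : B) (j : ℤ), (b : P) * t ^ (-j) ∈ N → e b = j := by
    intro b j hj
    have := N.mul_mem (N.inv_mem (he b)) hj
    have e1 : ((b : P) * t ^ (-(e b)))⁻¹ * (b * t ^ (-j)) = t ^ (e b + -j) := by
      rw [zpow_add, zpow_neg]; group
    rw [e1] at this
    have := h.free _ this
    omega
  refine ⟨⟨⟨fun b => Multiplicative.ofAdd (e b), ?_⟩, ?_⟩, ?_, ?_⟩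
  · rw [← ofAdd_zero]
    congr 1
    apply uniq
    simp
  · intro a b
    show Multiplicative.ofAdd (e (a * b)) = Multiplicative.ofAdd (e a) * Multiplicative.ofAdd (e b)
    rw [← ofAdd_add]
    congr 1
    apply uniq
    have h1 := h.zpow_conj (e a) _ (he b)
    have h2 := N.mul_mem (he a) h1
    have e1 : (a : P) * t ^ (-(e a)) * (t ^ (e a) * (b * t ^ (-(e b))) * (t ^ (e a))⁻¹) =
        ((a * b : B) : P) * t ^ (-(e a + e b)) := by
      rw [Subgroup.coe_mul, neg_add_rev, zpow_add]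
      simp only [zpow_neg]
      group
    rwa [e1] at h2
  · show Multiplicative.ofAdd (e _) = _
    congr 1
    apply uniq
    simp
  · intro b
    show Multiplicative.ofAdd (e b) = 1 ↔ _
    rw [← ofAdd_zero, Multiplicative.ofAdd.injective.eq_iff]
    constructor
    · intro h0
      have := he b
      rw [h0] at this
      simpa using this
    · intro hb
      apply uniq
      simpa using hb

/-- The induced extension on a subgroup. -/
lemma exists_sub_ext (h : ZExt N B t) (hL : L ≤ B) (hLN : ¬ L ≤ N) :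
    ∃ (d : ℕ) (s : P), d ≠ 0 ∧ s ∈ L ∧ s * (t ^ d)⁻¹ ∈ N ∧ ZExt (L ⊓ N) L s := by
  obtain ⟨χ, hχt, hχ⟩ := exists_exp h
  let χ' : B → ℤ := fun b => Multiplicative.toAdd (χ b)
  have hmul : ∀ a b : B, χ' (a * b) = χ' a + χ' b := fun a b => by simp [χ']
  have hinv : ∀ a : B, χ' a⁻¹ = - χ' a := fun a => by simp [χ']
  have hzpow : ∀ (a : B) (i : ℤ), χ' (a ^ i) = i * χ' a := fun a i => by simp [χ']
  have hpow : ∀ (a : B) (i : ℕ), χ' (a ^ i) = i * χ' a := fun a i => by simp [χ']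
  have ht : χ' ⟨t, h.mem⟩ = 1 := by simp only [χ', hχt]; rfl
  have hmem : ∀ b : B, χ' b = 0 ↔ (b : P) ∈ N := fun b => by
    rw [← hχ]
    constructor
    · intro h0; exact Multiplicative.toAdd.injective h0
    · intro h0; simp [χ', h0]
  let D : AddSubgroup ℤ :=
    { carrier := {i | ∃ l : B, (l : P) ∈ L ∧ χ' l = i}
      add_mem' := by
        rintro _ _ ⟨a, ha, rfl⟩ ⟨b, hb, rfl⟩
        exact ⟨a * b, L.mul_mem ha hb, hmul a b⟩
      zero_mem' := ⟨1, L.one_mem, by simp [χ']⟩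
      neg_mem' := by
        rintro _ ⟨a, ha, rfl⟩
        exact ⟨a⁻¹, L.inv_mem ha, hinv a⟩ }
  obtain ⟨d₀, hd₀⟩ := Int.subgroup_cyclic D
  have hd0 : d₀ ≠ 0 := by
    rintro rfl
    apply hLN
    intro l hl
    have : χ' ⟨l, hL hl⟩ ∈ D := ⟨_, hl, rfl⟩
    rw [hd₀, ← AddSubgroup.zmultiples_eq_closure, AddSubgroup.zmultiples_zero_eq_bot,
      AddSubgroup.mem_bot] at this
    exact (hmem _).mp this
  have hdD : (d₀.natAbs : ℤ) ∈ D := by
    have hd : d₀ ∈ D := by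
      rw [hd₀]; exact AddSubgroup.subset_closure rfl
    rcases Int.natAbs_eq d₀ with h1 | h1
    · rw [← h1]; exact hd
    · have := D.neg_mem hd
      have e : (d₀.natAbs : ℤ) = -d₀ := by omega
      rw [e]; exact this
  obtain ⟨s, hsL, hs⟩ := hdD
  refine ⟨d₀.natAbs, s, by omega, hsL, ?_, inf_le_left, hsL, ?_, ?_, ?_, ?_⟩
  · have : χ' (s * (⟨t, h.mem⟩ ^ d₀.natAbs)⁻¹) = 0 := by
      rw [hmul, hinv, hpow, ht, hs]; ring
    exact (hmem _).mp this
  · intro g hg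
    refine ⟨L.mul_mem (L.mul_mem hsL hg.1) (L.inv_mem hsL), ?_⟩
    have hgB : g ∈ B := hL hg.1
    have h0 : χ' ⟨g, hgB⟩ = 0 := (hmem _).mpr hg.2
    have : χ' (s * ⟨g, hgB⟩ * s⁻¹) = 0 := by rw [hmul, hmul, hinv, h0]; ring
    exact (hmem _).mp this
  · intro g hg
    refine ⟨L.mul_mem (L.mul_mem (L.inv_mem hsL) hg.1) hsL, ?_⟩
    have hgB : g ∈ B := hL hg.1
    have h0 : χ' ⟨g, hgB⟩ = 0 := (hmem _).mpr hg.2
    have : χ' (s⁻¹ * ⟨g, hgB⟩ * s) = 0 := by rw [hmul, hmul, hinv, h0]; ring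
    exact (hmem _).mp this
  · intro l hl
    have hlD : χ' ⟨l, hL hl⟩ ∈ D := ⟨_, hl, rfl⟩
    rw [hd₀, ← AddSubgroup.zmultiples_eq_closure, AddSubgroup.mem_zmultiples_iff] at hlD
    obtain ⟨k, hk⟩ := hlD
    rw [smul_eq_mul] at hk
    obtain ⟨k', hk'⟩ : ∃ k' : ℤ, χ' ⟨l, hL hl⟩ + k' * (d₀.natAbs : ℤ) = 0 := by
      rcases Int.natAbs_eq d₀ with h1 | h1
      · exact ⟨-k, by rw [← hk, ← h1]; ring⟩
      · refine ⟨k, ?_⟩
        have e : (d₀.natAbs : ℤ) = -d₀ := by omega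
        rw [e, ← hk]; ring
    refine ⟨k', L.mul_mem hl (L.zpow_mem hsL k'), ?_⟩
    have : χ' (⟨l, hL hl⟩ * s ^ k') = 0 := by rw [hmul, hzpow, hs, hk']
    exact (hmem _).mp this
  · intro i hi
    have : χ' (s ^ i) = 0 := (hmem _).mpr (by simpa using hi.2)
    rw [hzpow, hs] at this
    rcases mul_eq_zero.mp this with h1 | h1
    · exact h1
    · exfalso; omega

/-- Elements acting trivially on `B / N` act trivially on its subgroups. -/
lemma comm_mem (h : ZExt N B t) {p s : P} (hp : ∀ g ∈ N, p * g * p⁻¹ ∈ N)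
    (hpt : t⁻¹ * (p * t * p⁻¹) ∈ N) {d : ℕ} (hs : s * (t ^ d)⁻¹ ∈ N) :
    s⁻¹ * (p * s * p⁻¹) ∈ N := by
  -- `(p t p⁻¹)^d ∈ t^d N`
  have key : ∀ k : ℕ, (t ^ k)⁻¹ * (p * t ^ k * p⁻¹) ∈ N := by
    intro k
    induction k with
    | zero => simp
    | succ k ih =>
      have h1 := h.conj' _ ih
      have h2 := N.mul_mem h1 hpt
      have e : t⁻¹ * ((t ^ k)⁻¹ * (p * t ^ k * p⁻¹)) * t * (t⁻¹ * (p * t * p⁻¹)) =
          (t ^ (k + 1))⁻¹ * (p * t ^ (k + 1) * p⁻¹) := by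
        rw [pow_succ]; group
      rwa [e] at h2
  have h1 := hp _ hs
  have h2 := N.mul_mem (N.mul_mem (N.inv_mem hs) h1)
    (by simpa using h.zpow_conj d _ (key d) :
      t ^ d * ((t ^ d)⁻¹ * (p * t ^ d * p⁻¹)) * (t ^ d)⁻¹ ∈ N)
  have h3 := (by simpa using h.zpow_conj (-(d : ℤ)) _ h2 :
    (t ^ d)⁻¹ * ((s * (t ^ d)⁻¹)⁻¹ * (p * (s * (t ^ d)⁻¹) * p⁻¹) *
      (t ^ d * ((t ^ d)⁻¹ * (p * t ^ d * p⁻¹)) * (t ^ d)⁻¹)) * t ^ d ∈ N)
  have e : (t ^ d)⁻¹ * ((s * (t ^ d)⁻¹)⁻¹ * (p * (s * (t ^ d)⁻¹) * p⁻¹) *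
      (t ^ d * ((t ^ d)⁻¹ * (p * t ^ d * p⁻¹)) * (t ^ d)⁻¹)) * t ^ d =
      s⁻¹ * (p * s * p⁻¹) := by group
  rwa [e] at h3

end Group

section Index

variable {P X : Type} [Group P] [MulAction P X]

lemma tp_int (u : Ch X) (k : ℤ) : tp u k = k • tp u (1 : ℤ) := by
  rw [← tp_smul_right]; simp

lemma Fund.tp_mem {S : Set P} {B : Subgroup P} {h : ℕ} {e : Ch X} (he : Fund X S B h e) (k : ℤ) :
    tp e k ∈ DG X ℤ (h + 1) := tp_mem_DG he.mem k

lemma Fund.cyc' {S : Set P} {B : Subgroup P} {h : ℕ} {e : Ch X} (he : Fund X S B h e) (k : ℤ) :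
    bM (tp e k) ∈ Rl (X := X) (M := ℤ) (1 : P →* AddMonoid.End ℤ) B := by
  rw [tp_int, map_zsmul]
  exact AddSubgroup.zsmul_mem _ he.cyc k

/-- Fundamental classes are unique up to sign. -/
lemma fund_unique {S S' : Set P} {B : Subgroup P} {h : ℕ} {e e' : Ch X} (he : Fund X S B h e)
    (he' : Fund X S' B h e') : ∃ ε : ℤ, ε.natAbs = 1 ∧
      Null (X := X) (M := ℤ) (1 : P →* AddMonoid.End ℤ) B (h + 1) (tp e (1 : ℤ) - tp e' ε) := by
  obtain ⟨m, hm⟩ := he'.gen ℤ 1 (fun _ _ => rfl) _ (he.tp_mem 1) (he.cyc' 1)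
  obtain ⟨m', hm'⟩ := he.gen ℤ 1 (fun _ _ => rfl) _ (he'.tp_mem 1) (he'.cyc' 1)
  refine ⟨m, ?_, hm⟩
  have h1 := hm.add (hm'.zsmul m)
  have h2 : tp e (1 : ℤ) - tp e' m + m • (tp e' (1 : ℤ) - tp e m') = tp e (1 - m * m') := by
    rw [tp_sub_right, tp_int e (m * m'), tp_int e' m, tp_int e m', smul_sub, smul_smul]
    abel
  rw [h2] at h1
  have h3 := he.inj ℤ 1 (fun _ _ => rfl) _ h1
  have h4 : m * m' = 1 := by linarith
  exact Int.isUnit_iff_natAbs_eq.mp (IsUnit.of_mul_eq_one _ h4)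

/-- The length is unique. -/
lemma fund_length {S S' : Set P} {B : Subgroup P} {h h' : ℕ} {e e' : Ch X} (he : Fund X S B h e)
    (he' : Fund X S' B h' e') : h = h' := by
  have key : ∀ {S S' : Set P} {h h' : ℕ} {e e' : Ch X}, Fund X S B h e → Fund X S' B h' e' →
      ¬ h < h' := by
    intro S S' h h' e e' he he' hlt
    have h1 := he.van ℤ 1 (h' + 1) (by omega) _ (he'.tp_mem 1) (he'.cyc' 1)
    have h2 := he'.inj ℤ 1 (fun _ _ => rfl) _ h1
    exact one_ne_zero h2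
  have h1 := key he he'
  have h2 := key he' he
  omega

lemma aM_pow_sub {t : P} (y : CM X ℤ) (d : ℕ) :
    aM (1 : P →* AddMonoid.End ℤ) (t ^ d) y - y =
      aM (1 : P →* AddMonoid.End ℤ) t (∑ i ∈ Finset.range d, aM (1 : P →* AddMonoid.End ℤ) (t ^ i) y)
        - ∑ i ∈ Finset.range d, aM (1 : P →* AddMonoid.End ℤ) (t ^ i) y := by
  induction d with
  | zero => simp
  | succ d ih =>
    rw [Finset.sum_range_succ, map_add, ← aM_mul, ← pow_succ']
    have e : ∀ a b c d f : CM X ℤ, a + b - (c + f) = (a - c) + b - f := by intros; abel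
    rw [e _ _ _ y _, ← ih]
    abel

/-- The main induction. -/
theorem index_aux [Nonempty X] (hfree : ∀ (g : P) (x : X), g • x = x → g = 1) (h : ℕ) :
    ∀ (S T : Set P) (L B : Subgroup P), CS S h B → (B : Set P) ⊆ S → L ≤ B → (L : Set P) ⊆ T →
      T ⊆ S → (∀ p ∈ T, ∀ g ∈ L, p * g * p⁻¹ ∈ L) →
      ∃ j ≤ h, CS T j L ∧ (j = h → ∃ e e' : Ch X, Fund X T L h e ∧ Fund X S B h e' ∧
        ∃ k : ℤ, k ≠ 0 ∧ Null (X := X) (M := ℤ) (1 : P →* AddMonoid.End ℤ) B (h + 1)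
          (tp e (1 : ℤ) - tp e' k) ∧ (k.natAbs = 1 → L = B)) := by
  induction h with
  | zero =>
    intro S T L B hB _ hL _ _ _
    obtain rfl : B = ⊥ := hB
    obtain rfl : L = ⊥ := le_bot_iff.mp hL
    obtain ⟨x₀⟩ := ‹Nonempty X›
    refine ⟨0, le_rfl, rfl, fun _ => ⟨_, _, fund_zero T x₀, fund_zero S x₀, 1, one_ne_zero, ?_,
      fun _ => rfl⟩⟩
    rw [sub_self]
    exact Null.zero
  | succ h ih =>
    rintro S T L B ⟨N, t, hz, hN, hS⟩ hBS hL hLT hTS hTL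
    have hTL' : ∀ p ∈ T, ∀ g ∈ L ⊓ N, p * g * p⁻¹ ∈ L ⊓ N := fun p hp g hg =>
      ⟨hTL p hp g hg.1, (hS p (hTS hp)).1 g hg.2⟩
    obtain ⟨j, hj, hCS, hind⟩ := ih S T (L ⊓ N) N hN (fun g hg => hBS (hz.le hg)) inf_le_right
      (fun g hg => hLT hg.1) hTS hTL'
    by_cases hLN : L ≤ N
    · rw [inf_eq_left.mpr hLN] at hCS
      exact ⟨j, by omega, hCS, fun hj' => by omega⟩
    obtain ⟨d, s, hd, hsL, hst, hext⟩ := exists_sub_ext hz hL hLN
    have hST : ∀ p ∈ T, (∀ g ∈ L ⊓ N, p * g * p⁻¹ ∈ L ⊓ N) ∧ s⁻¹ * (p * s * p⁻¹) ∈ L ⊓ N := by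
      intro p hp
      obtain ⟨hp1, hp2⟩ := hS p (hTS hp)
      exact ⟨hTL' p hp, L.mul_mem (L.inv_mem hsL) (hTL p hp s hsL), comm_mem hz hp1 hp2 hst⟩
    refine ⟨j + 1, by omega, ⟨L ⊓ N, s, hext, hCS, hST⟩, fun hj' => ?_⟩
    obtain ⟨e₀, e₀', he₀, he₀', k₀, hk₀, hnull, hk1⟩ := hind (by omega)
    obtain ⟨e, he, hrel⟩ := fund_step hfree hLT hext hST he₀
    obtain ⟨e', he', hrel'⟩ := fund_step hfree hBS hz hS he₀'
    refine ⟨e, e', he, he', d * k₀, mul_ne_zero (by exact_mod_cast hd) hk₀, ?_, ?_⟩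
    · -- the connecting class of `e` in `B`
      set ρ : P →* AddMonoid.End ℤ := 1 with hρ
      set y : CM X ℤ := tp e₀ 1 with hy
      set Y : CM X ℤ := ∑ i ∈ Finset.range d, aM ρ (t ^ i) y with hY
      have htB : ∀ i : ℕ, t ^ i ∈ B := fun i => B.pow_mem hz.mem i
      have htN : ∀ i : ℕ, ∀ g ∈ N, t ^ i * g * (t ^ i)⁻¹ ∈ N := fun i g hg => by
        simpa using hz.zpow_conj i g hg
      have h1 : aM ρ s y - y - (aM ρ t Y - Y) ∈ Rl (X := X) ρ N := by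
        have e1 : aM ρ s y = aM ρ (s * (t ^ d)⁻¹) (aM ρ (t ^ d) y) := by
          rw [← aM_mul]; congr 2; group
        have h2 := sub_mem_Rl (ρ := ρ) hst (aM ρ (t ^ d) y)
        rw [← e1] at h2
        have h3 := aM_pow_sub (t := t) y d
        have e2 : aM ρ s y - y - (aM ρ t Y - Y) = aM ρ s y - aM ρ (t ^ d) y := by
          rw [hY, ← h3]; abel
        rw [e2]; exact h2
      have h2 : bM (tp e (1 : ℤ)) - (aM ρ t Y - Y) ∈ Rl (X := X) ρ N := by
        have := AddSubgroup.add_mem _ (Rl_mono inf_le_right hrel) h1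
        convert this using 1
        abel
      have h3 : bM (tp e' (d * k₀ : ℤ)) - (aM ρ t (tp e₀' (d * k₀ : ℤ)) - tp e₀' (d * k₀ : ℤ)) ∈
          Rl (X := X) ρ N := zm_rel (fun _ _ => rfl) rfl hrel' _
      have h4 : Null ρ N (h + 1) (Y - tp e₀' (d * k₀ : ℤ)) := by
        have e1 : Y - tp e₀' (d * k₀ : ℤ) = ∑ i ∈ Finset.range d,
            (aM ρ (t ^ i) (y - tp e₀' k₀) + k₀ • (aM ρ (t ^ i) (tp e₀' (1 : ℤ)) - tp e₀' 1)) := by
          have e2 : ∀ i ∈ Finset.range d, (aM ρ (t ^ i) (y - tp e₀' k₀) +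
              k₀ • (aM ρ (t ^ i) (tp e₀' (1 : ℤ)) - tp e₀' 1)) =
              aM ρ (t ^ i) y - k₀ • tp e₀' (1 : ℤ) := by
            intro i _
            rw [map_sub, tp_int e₀' k₀, map_zsmul, smul_sub]
            abel
          rw [Finset.sum_congr rfl e2, Finset.sum_sub_distrib, Finset.sum_const,
            Finset.card_range, tp_int e₀' (d * k₀), mul_smul, natCast_zsmul]
        rw [e1]
        apply Null.sum
        intro i _
        exact (hnull.act (htN i)).add ((he₀'.ori (t ^ i) (hBS (htB i))).zsmul k₀)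
      apply delta_inj hz (he₀'.van ℤ ρ (h + 2) le_rfl) (y := Y - tp e₀' (d * k₀ : ℤ))
        (AddSubgroup.sub_mem _ (he.tp_mem 1) (he'.tp_mem _)) _ h4
      have h5 := AddSubgroup.sub_mem _ h2 h3
      convert h5 using 1
      rw [map_sub, map_sub]
      abel
    · intro hk
      rw [Int.natAbs_mul, mul_eq_one, Int.natAbs_natCast] at hk
      obtain ⟨hd1, hk1'⟩ := hk
      have hLN' := hk1 hk1'
      have hNL : N ≤ L := inf_eq_right.mp hLN'
      subst hd1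
      have htL : t ∈ L := by
        have h1 := L.mul_mem (L.inv_mem (hNL hst)) hsL
        simpa using h1
      apply le_antisymm hL
      intro b hb
      obtain ⟨i, hi⟩ := hz.gen b hb
      have := L.mul_mem (hNL hi) (L.inv_mem (L.zpow_mem htL i))
      simpa using this

end Index

/-- (QA6a.2) -/
theorem qa6a_index : QA6a_index := by
  intro P X _ _ _ hfree h h' L B hL hB hLc
  obtain ⟨j, hj, hCS, hind⟩ := index_aux (X := X) hfree h (B : Set P) (L : Set P) L B hB le_rfl hL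
    le_rfl (fun g hg => hL hg) (fun p hp g hg => L.mul_mem (L.mul_mem hp hg) (L.inv_mem hp))
  obtain ⟨e₁, he₁⟩ := qa6a_fund P X hfree (L : Set P) j L le_rfl hCS
  obtain ⟨e₂, he₂⟩ := qa6a_fund P X hfree (L : Set P) h' L le_rfl hLc
  obtain rfl := fund_length he₁ he₂
  refine ⟨hj, ?_⟩
  rintro rfl e e' he he'
  obtain ⟨f, f', hf, hf', k, hk, hnull, hk1⟩ := hind rfl
  obtain ⟨ε, hε, h1⟩ := fund_unique he hf
  obtain ⟨ε', hε', h2⟩ := fund_unique hf' he'
  refine ⟨ε * k * ε', ?_, ?_, ?_⟩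
  · have h3 : ε ≠ 0 := by rintro rfl; simp at hε
    have h4 : ε' ≠ 0 := by rintro rfl; simp at hε'
    exact mul_ne_zero (mul_ne_zero h3 hk) h4
  · have h3 := ((h1.mono hL).add (hnull.zsmul ε)).add (h2.zsmul (ε * k))
    convert h3 using 1
    rw [tp_int f ε, tp_int f' k, tp_int e' ε', tp_int e' (ε * k * ε'), smul_sub, smul_sub,
      smul_smul, smul_smul]
    abel
  · intro h3
    apply hk1
    rw [Int.natAbs_mul, Int.natAbs_mul, hε, hε'] at h3
    simpa using h3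

end Vale.Agent.P188.H882
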